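import Vale.Agent.P209.ToricEmb

namespace Vale.Agent.P209

open Topology Filter Real

noncomputable section

/-- partial sum matrix -/
def SM (n : ℕ) : Matrix (Fin n) (Fin n) ℤ := Matrix.of fun i j => if j ≤ i then 1 else 0

theorem SM_det (n : ℕ) : (SM n).det = 1 := by
  rw [Matrix.det_of_isLowerTriangular]
  · simp [SM]
  · intro i j hij
    simp only [OrderDual.toDual_lt_toDual] at hij
    simp [SM, not_le.2 hij]

def SI (n : ℕ) : Matrix (Fin n) (Fin n) ℤ := (SM n)⁻¹

theorem SM_SI (n : ℕ) : SM n * SI n = 1 :=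
  Matrix.mul_nonsing_inv _ (by rw [SM_det]; exact isUnit_one)

theorem SI_SM (n : ℕ) : SI n * SM n = 1 :=
  Matrix.nonsing_inv_mul _ (by rw [SM_det]; exact isUnit_one)

theorem SM_mulVec {n : ℕ} (x : Fin n → ℝ) (a : Fin n) :
    (rm (SM n)).mulVec x a = ∑ j ∈ Finset.Iic a, x j := by
  simp only [Matrix.mulVec, dotProduct, rm, SM, Matrix.map_apply, Matrix.of_apply]
  rw [← Finset.sum_subset (Finset.subset_univ (Finset.Iic a))]
  · refine Finset.sum_congr rfl fun j hj => ?_
    rw [Finset.mem_Iic] at hj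
    simp [hj]
  · intro j _ hj
    rw [Finset.mem_Iic] at hj
    simp [hj]

theorem partial_pos {n : ℕ} {x : Fin n → ℝ} (h0 : ∀ a, 0 < (rm (SM n)).mulVec x a)
    (hmono : StrictMono ((rm (SM n)).mulVec x)) (a : Fin n) : 0 < x a := by
  have h1 : (rm (SM n)).mulVec x a = x a + ∑ j ∈ Finset.Iio a, x j := by
    rw [SM_mulVec, ← Finset.Iio_insert, Finset.sum_insert (by simp)]
  rcases Nat.eq_zero_or_pos (a : ℕ) with ha | ha
  · have : Finset.Iio a = ∅ := by
      ext j
      simp only [Finset.mem_Iio, Finset.notMem_empty, iff_false, not_lt]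
      rw [Fin.le_def, ha]; exact Nat.zero_le _
    rw [this] at h1
    have := h0 a
    simp at h1
    linarith
  · let a' : Fin n := ⟨a - 1, by omega⟩
    have h2 : Finset.Iio a = Finset.Iic a' := by
      ext j
      simp only [Finset.mem_Iio, Finset.mem_Iic, Fin.lt_def, Fin.le_def, a']
      omega
    have h3 : a' < a := by
      simp only [Fin.lt_def, a']; omega
    have h4 := hmono h3
    rw [h1, h2, ← SM_mulVec] at h4
    linarith

/-- sorting permutation of the cell `ℓ` -/
def srt {n m : ℕ} (l : Fin n → Fin m) : Equiv.Perm (Fin n) :=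
  Tuple.sort (fun i => toLex (l i, i))

theorem srt_lt {n m : ℕ} (l : Fin n → Fin m) {a b : Fin n} (hab : a < b) :
    l (srt l a) < l (srt l b) ∨ (l (srt l a) = l (srt l b) ∧ srt l a < srt l b) := by
  have hm : Monotone ((fun i => toLex (l i, i)) ∘ srt l) := Tuple.monotone_sort _
  have hi : Function.Injective ((fun i => toLex (l i, i)) ∘ srt l) := by
    apply Function.Injective.comp _ (srt l).injective
    intro i j hij
    have := congrArg (fun p => (ofLex p).2) hij
    simpa using this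
  have hs := (hm.strictMono_of_injective hi) hab
  simp only [Function.comp] at hs
  rw [Prod.Lex.toLex_lt_toLex] at hs
  exact hs

/-- the value vector before sorting -/
def vv {n m : ℕ} (s : ℝ) (l : Fin n → Fin m) (x : Fin n → ℝ) (i : Fin n) : ℝ :=
  (rm (SM n)).mulVec x i + s * ((l i : ℕ) : ℝ)

def shiftv {n : ℕ} (c : ℝ) (a : Fin n) : ℝ := if (a : ℕ) + 1 = n then c else 0

def BM {n m : ℕ} (l : Fin n → Fin m) : Matrix (Fin n) (Fin n) ℤ :=
  SI n * (SM n).submatrix (srt l) id

def BI {n m : ℕ} (l : Fin n → Fin m) : Matrix (Fin n) (Fin n) ℤ :=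
  (SI n).submatrix id (srt l) * SM n

theorem BI_BM {n m : ℕ} (l : Fin n → Fin m) : BI l * BM l = 1 := by
  unfold BI BM
  rw [Matrix.mul_assoc, ← Matrix.mul_assoc (SM n), SM_SI, Matrix.one_mul,
    Matrix.submatrix_mul_equiv, SI_SM]
  simp

def bv {n m : ℕ} (s c : ℝ) (l : Fin n → Fin m) : Fin n → ℝ :=
  (rm (SI n)).mulVec (fun a => s * ((l (srt l a) : ℕ) : ℝ) + shiftv c a)

/-- partial sums of the image point -/
theorem cell_partial {n m : ℕ} (s c : ℝ) (l : Fin n → Fin m) (x : Fin n → ℝ) :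
    (rm (SM n)).mulVec ((rm (BM l)).mulVec x + bv s c l) =
      fun a => vv s l x (srt l a) + shiftv c a := by
  have h1 : rm (SM n) * rm (SI n) = 1 := by rw [← rm_mul, SM_SI, rm_one]
  rw [Matrix.mulVec_add, bv, Matrix.mulVec_mulVec, Matrix.mulVec_mulVec, h1, Matrix.one_mulVec]
  have h2 : rm (SM n) * rm (BM l) = (rm (SM n)).submatrix (srt l) id := by
    rw [← rm_mul]
    unfold BM
    rw [← Matrix.mul_assoc, SM_SI, Matrix.one_mul]
    rfl
  rw [h2]
  funext a
  simp only [Pi.add_apply, vv]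
  have : ((rm (SM n)).submatrix (srt l) id).mulVec x a = (rm (SM n)).mulVec x (srt l a) := rfl
  rw [this]; ring

theorem psum_strictMono {n : ℕ} {x : Fin n → ℝ} (hx : ∀ i, 0 < x i) :
    StrictMono ((rm (SM n)).mulVec x) := by
  intro a b hab
  rw [SM_mulVec, SM_mulVec]
  apply Finset.sum_lt_sum_of_subset (i := b)
  · intro j hj
    rw [Finset.mem_Iic] at *
    exact hj.trans hab.le
  · simp
  · simp [hab]
  · exact hx b
  · intro j _ _
    exact (hx j).le

theorem psum_pos {n : ℕ} {x : Fin n → ℝ} (hx : ∀ i, 0 < x i) (a : Fin n) :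
    0 < (rm (SM n)).mulVec x a := by
  rw [SM_mulVec]
  apply Finset.sum_pos
  · intro i _; exact hx i
  · exact ⟨a, by simp⟩

theorem psum_lt {n : ℕ} {x : Fin n → ℝ} {s : ℝ} (hx : ∀ i, 0 < x i) (hs : ∑ i, x i < s)
    (a : Fin n) : (rm (SM n)).mulVec x a < s := by
  rw [SM_mulVec]
  refine lt_of_le_of_lt ?_ hs
  apply Finset.sum_le_sum_of_subset_of_nonneg (Finset.subset_univ _)
  intro i _ _; exact (hx i).le

theorem vv_srt_strictMono {n m : ℕ} {s : ℝ} {l : Fin n → Fin m} {x : Fin n → ℝ}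
    (hx : ∀ i, 0 < x i) (hs : ∑ i, x i < s) (hs0 : 0 < s) :
    StrictMono (fun a => vv s l x (srt l a)) := by
  intro a b hab
  simp only [vv]
  rcases srt_lt l hab with h | ⟨h, h'⟩
  · have h1 := psum_lt hx hs (srt l a)
    have h2 := psum_pos hx (srt l b)
    have h3 : ((l (srt l a) : ℕ) : ℝ) + 1 ≤ ((l (srt l b) : ℕ) : ℝ) := by
      exact_mod_cast Nat.succ_le_of_lt h
    nlinarith
  · rw [h]
    have := psum_strictMono hx h'
    linarith

theorem shiftv_nonneg {n : ℕ} {c : ℝ} (hc : 0 ≤ c) (a : Fin n) : 0 ≤ shiftv c a := by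
  unfold shiftv; split_ifs <;> simp [hc]

theorem shiftv_zero {n : ℕ} {c : ℝ} {a b : Fin n} (hab : a < b) : shiftv c a = 0 := by
  unfold shiftv
  rw [if_neg]
  have := b.2
  rw [Fin.lt_def] at hab
  omega

theorem cell_pos {n m : ℕ} {s c : ℝ} {l : Fin n → Fin m} {x : Fin n → ℝ}
    (hx : ∀ i, 0 < x i) (hs : ∑ i, x i < s) (hs0 : 0 < s) (hc : 0 ≤ c) (j : Fin n) :
    0 < (rm (BM l)).mulVec x j + bv s c l j := by
  have h := cell_partial s c l x
  apply partial_pos (x := (rm (BM l)).mulVec x + bv s c l)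
  · intro a
    rw [h]
    have h1 := psum_pos hx (srt l a)
    have h2 := shiftv_nonneg (n := n) hc a
    have h3 : 0 ≤ s * ((l (srt l a) : ℕ) : ℝ) := by positivity
    simp only [vv]
    linarith
  · rw [h]
    intro a b hab
    have h1 := vv_srt_strictMono (l := l) hx hs hs0 hab
    have h2 := shiftv_nonneg (n := n) hc b
    have h3 := shiftv_zero (c := c) hab
    simp only at h1 ⊢
    linarith

theorem cell_sum {n m : ℕ} (hn : 1 ≤ n) {s c : ℝ} {l : Fin n → Fin m} {x : Fin n → ℝ} :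
    ∑ j, ((rm (BM l)).mulVec x j + bv s c l j) =
      vv s l x (srt l ⟨n - 1, by omega⟩) + c := by
  have h := congrFun (cell_partial s c l x) ⟨n - 1, by omega⟩
  rw [SM_mulVec] at h
  have h1 : Finset.Iic (⟨n - 1, by omega⟩ : Fin n) = Finset.univ := by
    ext j
    simp only [Finset.mem_Iic, Fin.le_def, Finset.mem_univ, iff_true]
    omega
  rw [h1] at h
  have h2 : shiftv (n := n) c ⟨n - 1, by omega⟩ = c := by
    unfold shiftv; rw [if_pos]; simp; omega
  rw [h2] at h
  exact h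

theorem cell_sum_lt {n m : ℕ} (hn : 1 ≤ n) {s c : ℝ} {l : Fin n → Fin m} {x : Fin n → ℝ}
    (hx : ∀ i, 0 < x i) (hs : ∑ i, x i < s) (hs0 : 0 < s) :
    ∑ j, ((rm (BM l)).mulVec x j + bv s c l j) < m * s + c := by
  have _ := hs0
  rw [cell_sum hn]
  unfold vv
  have h1 := psum_lt hx hs (srt l ⟨n - 1, by omega⟩)
  have h2 : ((l (srt l ⟨n - 1, by omega⟩) : ℕ) : ℝ) + 1 ≤ m := by
    exact_mod_cast (l (srt l ⟨n - 1, by omega⟩)).2
  nlinarith

theorem cell_sum_gt {n m : ℕ} (hn : 1 ≤ n) {s c : ℝ} {l : Fin n → Fin m} {x : Fin n → ℝ}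
    (hx : ∀ i, 0 < x i)
    (hl : ∃ i, (l i : ℕ) + 1 = m) :
    (m - 1) * s + c < ∑ j, ((rm (BM l)).mulVec x j + bv s c l j) := by
  rw [cell_sum hn]
  unfold vv
  have h1 := psum_pos hx (srt l ⟨n - 1, by omega⟩)
  obtain ⟨i, hi⟩ := hl
  have h2 : (l (srt l ⟨n - 1, by omega⟩) : ℕ) + 1 = m := by
    obtain ⟨a, ha⟩ := (srt l).surjective i
    have hle : a ≤ (⟨n - 1, by omega⟩ : Fin n) := by
      rw [Fin.le_def]; have := a.2; simp only; omega
    rcases hle.eq_or_lt with he | hlt
    · rw [← he, ha]; exact hi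
    · have h4 := (l (srt l ⟨n - 1, by omega⟩)).2
      rcases srt_lt l hlt with h | ⟨h, _⟩
      · rw [ha, Fin.lt_def] at h; omega
      · rw [ha] at h; rw [← h]; exact hi
  have h3 : ((l (srt l ⟨n - 1, by omega⟩) : ℕ) : ℝ) = m - 1 := by
    have : (((l (srt l ⟨n - 1, by omega⟩) : ℕ) + 1 : ℕ) : ℝ) = (m : ℝ) := by rw [h2]
    push_cast at this
    linarith
  rw [h3]
  linarith

theorem cell_disj {n m : ℕ} {s c : ℝ} (hs0 : 0 < s) {l l' : Fin n → Fin m} {x x' : Fin n → ℝ}
    (hx : ∀ i, 0 < x i) (hs : ∑ i, x i < s) (hx' : ∀ i, 0 < x' i) (hs' : ∑ i, x' i < s)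
    (h : (rm (BM l)).mulVec x + bv s c l = (rm (BM l')).mulVec x' + bv s c l') : l = l' := by
  have h1 := congrArg (rm (SM n)).mulVec h
  rw [cell_partial, cell_partial] at h1
  have h2 : ∀ a, vv s l x (srt l a) = vv s l' x' (srt l' a) := by
    intro a
    have := congrFun h1 a
    linarith
  have h3 : ∀ a, l (srt l a) = l' (srt l' a) ∧
      (rm (SM n)).mulVec x (srt l a) = (rm (SM n)).mulVec x' (srt l' a) := by
    intro a
    have e := h2 a
    unfold vv at e
    have a1 := psum_pos hx (srt l a)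
    have a2 := psum_lt hx hs (srt l a)
    have a3 := psum_pos hx' (srt l' a)
    have a4 := psum_lt hx' hs' (srt l' a)
    have e2 : (l (srt l a) : ℕ) = (l' (srt l' a) : ℕ) := by
      rcases lt_trichotomy (l (srt l a) : ℕ) (l' (srt l' a) : ℕ) with hlt | heq | hgt
      · exfalso
        have : ((l (srt l a) : ℕ) : ℝ) + 1 ≤ ((l' (srt l' a) : ℕ) : ℝ) := by exact_mod_cast hlt
        nlinarith
      · exact heq
      · exfalso
        have : ((l' (srt l' a) : ℕ) : ℝ) + 1 ≤ ((l (srt l a) : ℕ) : ℝ) := by exact_mod_cast hgt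
        nlinarith
    refine ⟨Fin.ext e2, ?_⟩
    rw [e2] at e
    linarith
  have hmono : StrictMono (fun i => srt l' ((srt l).symm i)) := by
    intro i j hij
    have e1 := psum_strictMono hx hij
    have hi := (h3 ((srt l).symm i)).2
    have hj := (h3 ((srt l).symm j)).2
    simp only [Equiv.apply_symm_apply] at hi hj
    rw [hi, hj] at e1
    exact (psum_strictMono hx').lt_iff_lt.1 e1
  have hid : (fun i => srt l' ((srt l).symm i)) = id := by
    apply (StrictMono.range_inj hmono strictMono_id).1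
    have : Function.Surjective (fun i => srt l' ((srt l).symm i)) :=
      (srt l').surjective.comp (srt l).symm.surjective
    rw [this.range_eq, Set.range_id]
  have hσ : ∀ a, srt l' a = srt l a := by
    intro a
    have := congrFun hid (srt l a)
    simpa using this
  funext i
  obtain ⟨a, ha⟩ := (srt l).surjective i
  have := (h3 a).1
  rw [hσ a, ha] at this
  exact this

end

end Vale.Agent.P209
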