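import Mathlib

namespace Vale.Agent.P209

/-- The standard symplectic form `∑ dx_j ∧ dy_j` on `ℂ^n`. -/
def omega0 {n : ℕ} (u v : Fin n → ℂ) : ℝ :=
  ∑ j, ((u j).re * (v j).im - (u j).im * (v j).re)

/-- The closed ball of capacity `R` in `ℂ^n`. -/
def closedCapBall (n : ℕ) (R : ℝ) : Set (Fin n → ℂ) :=
  {z | Real.pi * ∑ j, ‖z j‖ ^ 2 ≤ R}

/-- The open ball of capacity `R` in `ℂ^n`, the interior of the closed one. -/
def openCapBall (n : ℕ) (R : ℝ) : Set (Fin n → ℂ) :=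
  {z | Real.pi * ∑ j, ‖z j‖ ^ 2 < R}

/-- `f` restricts to a smooth embedding of an open neighbourhood of `K` that preserves the
standard symplectic form. -/
def IsSymplecticEmbedding {n : ℕ} (K : Set (Fin n → ℂ)) (f : (Fin n → ℂ) → (Fin n → ℂ)) :
    Prop :=
  ∃ U : Set (Fin n → ℂ), IsOpen U ∧ K ⊆ U ∧ ContDiffOn ℝ (⊤ : ℕ∞) f U ∧
    Topology.IsEmbedding (fun z : U => f z) ∧
    ∀ z ∈ U, ∀ u v, omega0 (fderiv ℝ f z u) (fderiv ℝ f z v) = omega0 u v

/-- There is a symplectic embedding of the disjoint union of the closed balls of capacities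
`r i` into the open ball of capacity `R` in `ℂ^n`. -/
def HasBallPacking (n k : ℕ) (R : ℝ) (r : Fin k → ℝ) : Prop :=
  ∃ f : Fin k → (Fin n → ℂ) → (Fin n → ℂ),
    (∀ i, IsSymplecticEmbedding (closedCapBall n (r i)) (f i)) ∧
    (∀ i, f i '' closedCapBall n (r i) ⊆ openCapBall n R) ∧
    (∀ i j, i ≠ j → Disjoint (f i '' closedCapBall n (r i)) (f j '' closedCapBall n (r j)))

end Vale.Agent.P209
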