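import Vale.Agent.P209.Plane

namespace Vale.Agent.P209

open Real

noncomputable section

theorem hasFDerivAt_sq {d : ℝ} (hd : 0 < d) (z : ℂ) :
    HasFDerivAt (sq d) ((z.re / sq d z) • Complex.reCLM + (z.im / sq d z) • Complex.imCLM) z := by
  have hre : HasFDerivAt (fun z : ℂ => z.re) Complex.reCLM z := Complex.reCLM.hasFDerivAt
  have him : HasFDerivAt (fun z : ℂ => z.im) Complex.imCLM z := Complex.imCLM.hasFDerivAt
  have h1 := ((hre.pow 2).add (him.pow 2)).add_const (4 * d)
  have hne : z.re ^ 2 + z.im ^ 2 + 4 * d ≠ 0 := by positivity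
  have h2 := HasFDerivAt.sqrt h1 hne
  refine h2.congr_fderiv ?_
  have h3 : sq d z ≠ 0 := (sq_pos hd z).ne'
  have h4 : √(z.re ^ 2 + z.im ^ 2 + 4 * d) = sq d z := rfl
  refine ContinuousLinearMap.ext fun u => ?_
  simp [h4]
  field_simp

theorem hasFDerivAt_tc {d : ℝ} (hd : 0 < d) (z : ℂ) :
    HasFDerivAt (tc d)
      ((z.re + sq d z / 2 + z.re ^ 2 / (2 * sq d z)) • Complex.reCLM +
        (z.im + z.re * z.im / (2 * sq d z)) • Complex.imCLM) z := by
  have hre : HasFDerivAt (fun z : ℂ => z.re) Complex.reCLM z := Complex.reCLM.hasFDerivAt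
  have him : HasFDerivAt (fun z : ℂ => z.im) Complex.imCLM z := Complex.imCLM.hasFDerivAt
  have hs := hasFDerivAt_sq hd z
  have h1 := (((hre.pow 2).add (him.pow 2)).mul_const (1 / 2)).const_add d
  have h2 := h1.add ((hs.mul hre).mul_const (1 / 2))
  have h3 : sq d z ≠ 0 := (sq_pos hd z).ne'
  refine (h2.congr_fderiv ?_).congr_of_eventuallyEq ?_
  · refine ContinuousLinearMap.ext fun u => ?_
    simp
    field_simp
    ring
  · filter_upwards with w
    simp [tc]
    ring

theorem hasFDerivAt_yc {d : ℝ} (hd : 0 < d) (z : ℂ) :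
    HasFDerivAt (yc d)
      ((z.re * z.im / (2 * sq d z)) • Complex.reCLM +
        (sq d z / 2 + z.im ^ 2 / (2 * sq d z)) • Complex.imCLM) z := by
  have him : HasFDerivAt (fun z : ℂ => z.im) Complex.imCLM z := Complex.imCLM.hasFDerivAt
  have hs := hasFDerivAt_sq hd z
  have h2 := ((hs.mul him).mul_const (1 / 2))
  have h3 : sq d z ≠ 0 := (sq_pos hd z).ne'
  refine (h2.congr_fderiv ?_).congr_of_eventuallyEq ?_
  · refine ContinuousLinearMap.ext fun u => ?_
    simp
    field_simp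
    ring
  · filter_upwards with w
    simp [yc]
    ring

/-- the plane map to the strip -/
def plane (d : ℝ) (z : ℂ) : ℝ × ℝ := (Xc (tc d z) (yc d z), Tc (tc d z) (yc d z))

theorem hasFDerivAt_Xc {d : ℝ} (hd : 0 < d) (z : ℂ) :
    HasFDerivAt (fun z => Xc (tc d z) (yc d z))
      ((π * (1 - yc d z ^ 2 / tc d z ^ 2)) •
        ((z.re + sq d z / 2 + z.re ^ 2 / (2 * sq d z)) • Complex.reCLM +
        (z.im + z.re * z.im / (2 * sq d z)) • Complex.imCLM) +
        (2 * π * yc d z / tc d z) •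
        ((z.re * z.im / (2 * sq d z)) • Complex.reCLM +
        (sq d z / 2 + z.im ^ 2 / (2 * sq d z)) • Complex.imCLM)) z := by
  have ht := tc_pos hd z
  have h1 := hasFDerivAt_tc hd z
  have h2 := hasFDerivAt_yc hd z
  have hi := (hasDerivAt_inv ht.ne').comp_hasFDerivAt z h1
  have h3 := (h1.add ((h2.pow 2).mul hi)).const_mul π
  have hs : sq d z ≠ 0 := (sq_pos hd z).ne'
  refine (h3.congr_fderiv ?_).congr_of_eventuallyEq ?_
  · refine ContinuousLinearMap.ext fun u => ?_
    simp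
    field_simp
    ring
  · filter_upwards with w
    simp [Xc]
    ring

theorem hasFDerivAt_Tc {d : ℝ} (hd : 0 < d) (z : ℂ) :
    HasFDerivAt (fun z => Tc (tc d z) (yc d z))
      ((-(yc d z / (π * (tc d z ^ 2 + yc d z ^ 2)))) •
        ((z.re + sq d z / 2 + z.re ^ 2 / (2 * sq d z)) • Complex.reCLM +
        (z.im + z.re * z.im / (2 * sq d z)) • Complex.imCLM) +
        (tc d z / (π * (tc d z ^ 2 + yc d z ^ 2))) •
        ((z.re * z.im / (2 * sq d z)) • Complex.reCLM +
        (sq d z / 2 + z.im ^ 2 / (2 * sq d z)) • Complex.imCLM)) z := by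
  have ht := tc_pos hd z
  have h1 := hasFDerivAt_tc hd z
  have h2 := hasFDerivAt_yc hd z
  have hi := (hasDerivAt_inv ht.ne').comp_hasFDerivAt z h1
  have h3 := (((h2.mul hi).arctan).mul_const (1 / π)).const_add (1 / 2)
  have hs : sq d z ≠ 0 := (sq_pos hd z).ne'
  have hq : tc d z ^ 2 + yc d z ^ 2 ≠ 0 := by positivity
  refine (h3.congr_fderiv ?_).congr_of_eventuallyEq ?_
  · refine ContinuousLinearMap.ext fun u => ?_
    simp
    field_simp
  · filter_upwards with w
    simp [Tc]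
    ring_nf

/-- the derivative of the plane map, as a pair -/
theorem exists_plane_deriv {d : ℝ} (hd : 0 < d) (z : ℂ) :
    ∃ L : ℂ →L[ℝ] ℝ × ℝ, HasFDerivAt (plane d) L z ∧
      ∀ u v : ℂ, (L u).1 * (L v).2 - (L u).2 * (L v).1 = u.re * v.im - u.im * v.re := by
  refine ⟨_, (hasFDerivAt_Xc hd z).prodMk (hasFDerivAt_Tc hd z), fun u v => ?_⟩
  have ht := tc_pos hd z
  have hs : 0 < sq d z := sq_pos hd z
  have hp := Real.pi_pos
  have hsq := sq_sq hd z
  have h1 : tc d z = d + (z.re ^ 2 + z.im ^ 2) / 2 + sq d z * z.re / 2 := rfl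
  have hq : 0 < tc d z ^ 2 + yc d z ^ 2 := by positivity
  -- first the Jacobian of (t, y)
  have hJ : (z.re + sq d z / 2 + z.re ^ 2 / (2 * sq d z)) *
      (sq d z / 2 + z.im ^ 2 / (2 * sq d z)) -
      (z.im + z.re * z.im / (2 * sq d z)) * (z.re * z.im / (2 * sq d z)) = tc d z := by
    have e : (z.re + sq d z / 2 + z.re ^ 2 / (2 * sq d z)) *
      (sq d z / 2 + z.im ^ 2 / (2 * sq d z)) -
      (z.im + z.re * z.im / (2 * sq d z)) * (z.re * z.im / (2 * sq d z)) =
      sq d z ^ 2 / 4 + (z.re ^ 2 + z.im ^ 2) / 4 + sq d z * z.re / 2 := by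
      field_simp
      ring
    rw [e, hsq, h1]
    ring
  set a := (z.re + sq d z / 2 + z.re ^ 2 / (2 * sq d z)) with ha
  set b := (z.im + z.re * z.im / (2 * sq d z)) with hb
  set c := (z.re * z.im / (2 * sq d z)) with hc
  set e := (sq d z / 2 + z.im ^ 2 / (2 * sq d z)) with he
  set t := tc d z with htt
  set y := yc d z with hyy
  have hJ' : a * e - b * c = t := hJ
  simp only [ContinuousLinearMap.prod_apply, add_apply,
    smul_apply, Complex.reCLM_apply, Complex.imCLM_apply, smul_eq_mul]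
  have key : ∀ (u1 u2 v1 v2 : ℝ),
      (π * (1 - y ^ 2 / t ^ 2) * u1 + 2 * π * y / t * u2) *
        (-(y / (π * (t ^ 2 + y ^ 2))) * v1 + t / (π * (t ^ 2 + y ^ 2)) * v2) -
      (-(y / (π * (t ^ 2 + y ^ 2))) * u1 + t / (π * (t ^ 2 + y ^ 2)) * u2) *
        (π * (1 - y ^ 2 / t ^ 2) * v1 + 2 * π * y / t * v2) = (u1 * v2 - u2 * v1) / t := by
    intro u1 u2 v1 v2
    field_simp
    ring
  rw [key]
  rw [div_eq_iff ht.ne', ← hJ']
  ring

theorem plane_contDiff {d : ℝ} (hd : 0 < d) {n : ℕ∞} : ContDiff ℝ n (plane d) := by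
  have hre : ContDiff ℝ n (fun z : ℂ => z.re) := Complex.reCLM.contDiff
  have him : ContDiff ℝ n (fun z : ℂ => z.im) := Complex.imCLM.contDiff
  have hs : ContDiff ℝ n (sq d) := by
    unfold sq
    apply ContDiff.sqrt
    · exact ((hre.pow 2).add (him.pow 2)).add contDiff_const
    · intro z; positivity
  have ht : ContDiff ℝ n (tc d) := by
    unfold tc
    exact (contDiff_const.add (((hre.pow 2).add (him.pow 2)).div_const 2)).add
      ((hs.mul hre).div_const 2)
  have hy : ContDiff ℝ n (yc d) := by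
    unfold yc
    exact (hs.mul him).div_const 2
  have htne : ∀ z, tc d z ≠ 0 := fun z => (tc_pos hd z).ne'
  unfold plane Xc Tc
  refine ContDiff.prodMk ?_ ?_
  · exact contDiff_const.mul (ht.add ((hy.pow 2).div ht htne))
  · exact contDiff_const.add ((hy.div ht htne).arctan.div_const π)

end

end Vale.Agent.P209
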