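import Vale.Agent.P209.Defs

namespace Vale.Agent.P209

open Topology Filter

noncomputable section

theorem omega0_single {n : ℕ} (u : Fin n → ℂ) (j : Fin n) (w : ℂ) :
    omega0 u (Pi.single j w) = (u j).re * w.im - (u j).im * w.re := by
  unfold omega0
  rw [Finset.sum_eq_single j]
  · simp
  · intro b _ hb
    simp [Pi.single_eq_of_ne hb]
  · simp

theorem omega0_nondeg {n : ℕ} {u : Fin n → ℂ} (h : ∀ v, omega0 u v = 0) : u = 0 := by
  funext j
  have h1 := h (Pi.single j 1)
  have h2 := h (Pi.single j Complex.I)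
  rw [omega0_single] at h1 h2
  apply Complex.ext
  · simpa using h2
  · simpa using h1

theorem omega0_zero_left {n : ℕ} (v : Fin n → ℂ) : omega0 0 v = 0 := by
  simp [omega0]

theorem isEmbedding_of_symplectic {n : ℕ} {f : (Fin n → ℂ) → (Fin n → ℂ)} {U : Set (Fin n → ℂ)}
    (hU : IsOpen U) (hf : ContDiffOn ℝ (⊤ : ℕ∞) f U) (hinj : Set.InjOn f U)
    (hω : ∀ z ∈ U, ∀ u v, omega0 (fderiv ℝ f z u) (fderiv ℝ f z v) = omega0 u v) :
    IsEmbedding (fun z : U => f z) := by
  have hcont : Continuous (fun z : U => f z) := by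
    exact continuousOn_iff_continuous_domRestrict.1 hf.continuousOn
  have hi : Function.Injective (fun z : U => f z) := by
    intro a b hab
    exact Subtype.ext (hinj a.2 b.2 hab)
  have hopen : IsOpenMap (fun z : U => f z) := by
    rw [isOpenMap_iff_nhds_le]
    intro z
    have hz : ContDiffAt ℝ (⊤ : ℕ∞) f z := (hf z z.2).contDiffAt (hU.mem_nhds z.2)
    have hs : HasStrictFDerivAt f (fderiv ℝ f z) (z : Fin n → ℂ) :=
      hz.hasStrictFDerivAt (by simp)
    have hinjL : Function.Injective (fderiv ℝ f z) := by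
      rw [injective_iff_map_eq_zero]
      intro u hu
      apply omega0_nondeg
      intro v
      rw [← hω z z.2 u v, hu, omega0_zero_left]
    have hsurj : Function.Surjective (fderiv ℝ f z) := by
      have := (LinearMap.injective_iff_surjective (f := (fderiv ℝ f z).toLinearMap)).1 hinjL
      exact this
    have hmap := hs.map_nhds_eq_of_surj (LinearMap.range_eq_top.2 hsurj)
    have h1 : map (fun z : U => f z) (𝓝 z) = map f (map Subtype.val (𝓝 z)) := by
      rw [Filter.map_map]; rfl
    rw [h1, hU.isOpenEmbedding_subtypeVal.map_nhds_eq, hmap]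
  exact (IsOpenEmbedding.of_continuous_injective_isOpenMap hcont hi hopen).isEmbedding

end

end Vale.Agent.P209
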