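import Vale.Agent.P209.Cells

namespace Vale.Agent.P209

open Topology Filter Real

noncomputable section

theorem id_embedding {n : ℕ} (r : ℝ) :
    IsSymplecticEmbedding (closedCapBall n r) (fun z : Fin n → ℂ => z) := by
  refine ⟨Set.univ, isOpen_univ, Set.subset_univ _, contDiffOn_id, ?_, ?_⟩
  · exact IsEmbedding.subtypeVal
  · intro z _ u v
    have : fderiv ℝ (fun z : Fin n → ℂ => z) z = ContinuousLinearMap.id ℝ _ := fderiv_fun_id
    rw [this]; rfl

/-- the set of cells touching the outer facet -/
def outer (n m : ℕ) : Finset (Fin n → Fin m) :=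
  Finset.univ.filter fun l => ∃ i, (l i : ℕ) + 1 = m

theorem card_outer (n m : ℕ) (hm : 1 ≤ m) : (outer n m).card = m ^ n - (m - 1) ^ n := by
  classical
  obtain ⟨p, rfl⟩ : ∃ p, m = p + 1 := ⟨m - 1, by omega⟩
  have h1 : (outer n (p + 1)) = Finset.univ \
      (Finset.univ.image (fun l : Fin n → Fin p => fun i => (l i).castSucc)) := by
    ext l
    simp only [outer, Finset.mem_filter, Finset.mem_univ, true_and, Finset.mem_sdiff,
      Finset.mem_image]
    constructor
    · rintro ⟨i, hi⟩ ⟨l', hl'⟩
      have := congrFun hl' i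
      have h2 := (l' i).2
      rw [← this] at hi
      simp at hi
      omega
    · intro h
      by_contra hne
      push Not at hne
      apply h
      have hlt : ∀ i, (l i : ℕ) < p := by
        intro i
        have := hne i
        have := (l i).2
        omega
      exact ⟨fun i => ⟨l i, hlt i⟩, by funext i; ext; simp⟩
  rw [h1, Finset.card_sdiff_of_subset (Finset.subset_univ _), Finset.card_image_of_injective]
  · simp
  · intro a b hab
    funext i
    have := congrFun hab i
    simpa using this

theorem packing_core {n k m : ℕ} (hn : 1 ≤ n) (hm : 1 ≤ m) {R s : ℝ} {r : Fin k → ℝ}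
    (hs : 0 < s) (hms : m * s ≤ R) (i0 : Fin k) (hi0 : r i0 < R - s)
    (hr : ∀ i, i ≠ i0 → r i < s) (hk : k ≤ m ^ n - (m - 1) ^ n + 1) :
    HasBallPacking n k R r := by
  classical
  -- assignment of cells
  have hcard : Fintype.card {i : Fin k // i ≠ i0} ≤ Fintype.card (outer n m) := by
    rw [Fintype.card_coe, card_outer n m hm]
    simp
    omega
  obtain ⟨g, hg⟩ : ∃ g : {i : Fin k // i ≠ i0} → (outer n m), Function.Injective g := by
    obtain ⟨e⟩ := Function.Embedding.nonempty_of_card_le hcard
    exact ⟨e, e.injective⟩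
  have hc : 0 ≤ R - m * s := by linarith
  -- embeddings for the small balls
  have hex : ∀ (i : Fin k) (hi : i ≠ i0), ∃ f : (Fin n → ℂ) → (Fin n → ℂ),
      IsSymplecticEmbedding (closedCapBall n (r i)) f ∧
      ∀ z ∈ closedCapBall n (r i), ∃ x : Fin n → ℝ, (∀ i, 0 < x i) ∧ ∑ i, x i < s ∧
        ∀ j, π * ‖f z j‖ ^ 2 =
          (rm (BM (g ⟨i, hi⟩).1)).mulVec x j + bv s (R - m * s) (g ⟨i, hi⟩).1 j
      := by
    intro i hi
    refine toric_embedding hn (BI_BM _) _ (hr i hi) ?_
    intro x hx hxs j
    exact cell_pos hx hxs hs hc j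
  choose F hF1 hF2 using hex
  refine ⟨fun i => if hi : i ≠ i0 then F i hi else fun z => z, ?_, ?_, ?_⟩
  · intro i
    by_cases hi : i = i0
    · subst hi
      simpa using id_embedding (r i)
    · simpa [hi] using hF1 i hi
  · intro i
    rintro _ ⟨z, hz, rfl⟩
    by_cases hi : i = i0
    · subst hi
      simp only [ne_eq, not_true_eq_false, dite_false]
      simp only [closedCapBall, openCapBall, Set.mem_ofPred_eq] at hz ⊢
      linarith
    · simp only [ne_eq, hi, not_false_eq_true, dite_true]
      obtain ⟨x, hx, hxs, hxj⟩ := hF2 i hi z hz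
      simp only [openCapBall, Set.mem_ofPred_eq]
      rw [Finset.mul_sum, Finset.sum_congr rfl fun j _ => hxj j]
      have := cell_sum_lt hn (c := R - m * s) (l := (g ⟨i, hi⟩).1) hx hxs hs
      linarith
  · have hmain : ∀ i, ∀ hi : i ≠ i0, Disjoint (F i hi '' closedCapBall n (r i))
        ((fun z : Fin n → ℂ => z) '' closedCapBall n (r i0)) := by
      intro i hi
      rw [Set.disjoint_left]
      rintro _ ⟨z, hz, rfl⟩ ⟨w, hw, hwz⟩
      simp only at hwz
      obtain ⟨x, hx, hxs, hxj⟩ := hF2 i hi z hz
      have h1 : π * ∑ j, ‖w j‖ ^ 2 ≤ r i0 := hw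
      rw [hwz, Finset.mul_sum, Finset.sum_congr rfl fun j _ => hxj j] at h1
      have h2 := cell_sum_gt hn (s := s) (c := R - m * s) (l := (g ⟨i, hi⟩).1) hx
        (by have := (g ⟨i, hi⟩).2; simpa [outer] using this)
      linarith
    have hmain2 : ∀ i j, ∀ hi : i ≠ i0, ∀ hj : j ≠ i0, i ≠ j →
        Disjoint (F i hi '' closedCapBall n (r i)) (F j hj '' closedCapBall n (r j)) := by
      intro i j hi hj hij
      rw [Set.disjoint_left]
      rintro _ ⟨z, hz, rfl⟩ ⟨w, hw, hwz⟩
      obtain ⟨x, hx, hxs, hxj⟩ := hF2 i hi z hz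
      obtain ⟨x', hx', hxs', hxj'⟩ := hF2 j hj w hw
      have h1 : (rm (BM (g ⟨i, hi⟩).1)).mulVec x +
          bv s (R - m * s) (g ⟨i, hi⟩).1 =
          (rm (BM (g ⟨j, hj⟩).1)).mulVec x' +
          bv s (R - m * s) (g ⟨j, hj⟩).1 := by
        funext a
        simp only [Pi.add_apply]
        rw [← hxj a, ← hxj' a, hwz]
      have h2 := cell_disj hs hx hxs hx' hxs' h1
      have h3 := hg (Subtype.ext h2)
      simp at h3
      exact hij h3
    intro i j hij
    by_cases hi : i = i0
    · have hj : j ≠ i0 := by rintro rfl; exact hij hi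
      subst hi
      simpa [hj] using (hmain j hj).symm
    · by_cases hj : j = i0
      · subst hj
        simpa [hi] using hmain i hi
      · simpa [hi, hj] using hmain2 i j hi hj hij

theorem packing_main {n k m : ℕ} (hn : 1 ≤ n) (hm : 2 ≤ m) {R : ℝ} {r : Fin k → ℝ}
    (hR : 0 < R) (hr : ∀ i, 0 < r i) (hvol : ∑ i, r i ^ n < R ^ n)
    (hpair : ∀ i j, i ≠ j → r i + r j < R)
    (hk : k ≤ m ^ n - (m - 1) ^ n + 1) (hbig : m = 2 ∨ ∃ i, m * (R - r i) ≤ R) :
    HasBallPacking n k R r := by
  have hone : ∀ i, r i < R := by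
    intro i
    have h1 : r i ^ n ≤ ∑ i, r i ^ n :=
      Finset.single_le_sum (f := fun i => r i ^ n) (fun j _ => (pow_pos (hr j) n).le)
        (Finset.mem_univ i)
    exact lt_of_pow_lt_pow_left₀ n hR.le (lt_of_le_of_lt h1 hvol)
  have hm0 : (0 : ℝ) < m := by
    have : 0 < m := by omega
    exact_mod_cast this
  -- the case of a large ball
  have hlarge : ∀ i, m * (R - r i) ≤ R → HasBallPacking n k R r := by
    intro i0 hi0
    have hev : ∀ᶠ s in 𝓝[<] (R - r i0), (∀ j, j ≠ i0 → r j < s) ∧ 0 < s ∧ s < R - r i0 := by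
      refine Filter.Eventually.and ?_ (Filter.Eventually.and ?_ ?_)
      · rw [Filter.eventually_all]
        intro j
        by_cases hj : j = i0
        · exact Filter.Eventually.of_forall fun s h => absurd hj h
        · have h1 : r j < R - r i0 := by have := hpair j i0 hj; linarith
          have h2 : ∀ᶠ s in 𝓝[<] (R - r i0), r j < s :=
            (eventually_gt_nhds h1).filter_mono nhdsWithin_le_nhds
          filter_upwards [h2] with s hs _ using hs
      · have h1 : 0 < R - r i0 := by have := hone i0; linarith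
        exact (eventually_gt_nhds h1).filter_mono nhdsWithin_le_nhds
      · exact eventually_mem_nhdsWithin
    obtain ⟨s, hs1, hs2, hs3⟩ := hev.exists
    refine packing_core hn (by omega) hs2 ?_ i0 (by linarith) hs1 hk
    have : (m : ℝ) * s ≤ m * (R - r i0) := by
      apply mul_le_mul_of_nonneg_left hs3.le hm0.le
    linarith
  rcases hbig with rfl | ⟨i, hi⟩
  · by_cases h : ∃ i, R ≤ 2 * r i
    · obtain ⟨i, hi⟩ := h
      apply hlarge i
      push_cast
      linarith
    · push Not at h
      rcases Nat.eq_zero_or_pos k with rfl | hk0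
      · refine ⟨fun i => i.elim0, fun i => i.elim0, fun i => i.elim0, fun i => i.elim0⟩
      · refine packing_core hn (by omega) (s := R / 2) (by linarith) ?_ ⟨0, hk0⟩ ?_ ?_ hk
        · push_cast; linarith
        · have := h ⟨0, hk0⟩; linarith
        · intro i _
          have := h i; linarith
  · exact hlarge i hi

end

end Vale.Agent.P209
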