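import Mathlib

namespace Vale.Agent.P209

open Real

noncomputable section

/-- auxiliary square root -/
def sq (d : ℝ) (z : ℂ) : ℝ := √(z.re ^ 2 + z.im ^ 2 + 4 * d)

def tc (d : ℝ) (z : ℂ) : ℝ := d + (z.re ^ 2 + z.im ^ 2) / 2 + sq d z * z.re / 2

def yc (d : ℝ) (z : ℂ) : ℝ := sq d z * z.im / 2

def Xc (t y : ℝ) : ℝ := π * (t + y ^ 2 / t)

def Tc (t y : ℝ) : ℝ := 1 / 2 + arctan (y / t) / π

theorem sq_pos {d : ℝ} (hd : 0 < d) (z : ℂ) : 0 < sq d z := by
  unfold sq; apply sqrt_pos.2; positivity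

theorem sq_sq {d : ℝ} (hd : 0 < d) (z : ℂ) : sq d z ^ 2 = z.re ^ 2 + z.im ^ 2 + 4 * d := by
  unfold sq; apply sq_sqrt; positivity

theorem key_id {d : ℝ} (hd : 0 < d) (z : ℂ) :
    yc d z ^ 2 + d ^ 2 = tc d z * (z.re ^ 2 + z.im ^ 2 + 2 * d - tc d z) := by
  have h := sq_sq hd z
  unfold yc tc
  have : (sq d z * z.im / 2) ^ 2 = (sq d z) ^ 2 * z.im ^ 2 / 4 := by ring
  rw [this]
  have h2 : (d + (z.re ^ 2 + z.im ^ 2) / 2 + sq d z * z.re / 2) *
      (z.re ^ 2 + z.im ^ 2 + 2 * d - (d + (z.re ^ 2 + z.im ^ 2) / 2 + sq d z * z.re / 2))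
      = (d + (z.re ^ 2 + z.im ^ 2) / 2) ^ 2 - (sq d z) ^ 2 * z.re ^ 2 / 4 := by ring
  rw [h2, h]; ring

theorem tc_pos {d : ℝ} (hd : 0 < d) (z : ℂ) : 0 < tc d z := by
  have h := key_id hd z
  have h1 : 0 < yc d z ^ 2 + d ^ 2 := by positivity
  rw [h] at h1
  by_contra hneg
  push Not at hneg
  have h3 : 0 < z.re ^ 2 + z.im ^ 2 + 2 * d := by positivity
  have : tc d z * (z.re ^ 2 + z.im ^ 2 + 2 * d - tc d z) ≤ 0 := by
    apply mul_nonpos_of_nonpos_of_nonneg hneg; linarith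
  linarith

theorem Xc_pos {t : ℝ} (ht : 0 < t) (y : ℝ) : 0 < Xc t y := by
  unfold Xc; positivity

theorem Xc_eq {d : ℝ} (hd : 0 < d) (z : ℂ) :
    Xc (tc d z) (yc d z) = π * (z.re ^ 2 + z.im ^ 2 + 2 * d - d ^ 2 / tc d z) := by
  have h := key_id hd z
  have ht := tc_pos hd z
  unfold Xc
  have : yc d z ^ 2 = tc d z * (z.re ^ 2 + z.im ^ 2 + 2 * d - tc d z) - d ^ 2 := by linarith
  rw [this]; field_simp; ring

theorem Xc_lt {d : ℝ} (hd : 0 < d) (z : ℂ) :
    Xc (tc d z) (yc d z) < π * ‖z‖ ^ 2 + 2 * π * d := by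
  rw [Xc_eq hd, Complex.sq_norm, Complex.normSq_apply]
  have ht := tc_pos hd z
  have : 0 < d ^ 2 / tc d z := by positivity
  have hp := Real.pi_pos
  nlinarith

theorem Tc_pos (t y : ℝ) : 0 < Tc t y := by
  unfold Tc
  have h := Real.neg_pi_div_two_lt_arctan (y / t)
  have hp := Real.pi_pos
  have : -(1/2) < arctan (y / t) / π := by
    rw [lt_div_iff₀ hp]; linarith
  linarith

theorem Tc_lt_one (t y : ℝ) : Tc t y < 1 := by
  unfold Tc
  have h := Real.arctan_lt_pi_div_two (y / t)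
  have hp := Real.pi_pos
  have : arctan (y / t) / π < 1 / 2 := by
    rw [div_lt_iff₀ hp]; linarith
  linarith

/-- The plane map is injective. -/
theorem plane_inj {d : ℝ} (hd : 0 < d) {z w : ℂ}
    (h1 : Xc (tc d z) (yc d z) = Xc (tc d w) (yc d w))
    (h2 : Tc (tc d z) (yc d z) = Tc (tc d w) (yc d w)) : z = w := by
  have hz := tc_pos hd z
  have hw := tc_pos hd w
  have hp := Real.pi_pos
  have h3 : arctan (yc d z / tc d z) = arctan (yc d w / tc d w) := by
    unfold Tc at h2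
    have : arctan (yc d z / tc d z) / π = arctan (yc d w / tc d w) / π := by linarith
    field_simp at this
    exact this
  have h4 : yc d z / tc d z = yc d w / tc d w := Real.arctan_injective h3
  set c := yc d z / tc d z with hc
  have hyz : yc d z = c * tc d z := by rw [hc]; field_simp
  have hyw : yc d w = c * tc d w := by rw [h4]; field_simp
  have h5 : tc d z = tc d w := by
    unfold Xc at h1
    rw [hyz, hyw] at h1
    have e1 : tc d z + (c * tc d z) ^ 2 / tc d z = (1 + c ^ 2) * tc d z := by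
      field_simp
    have e2 : tc d w + (c * tc d w) ^ 2 / tc d w = (1 + c ^ 2) * tc d w := by
      field_simp
    rw [e1, e2] at h1
    have h6 := mul_left_cancel₀ hp.ne' h1
    have h7 : (1 + c ^ 2) ≠ 0 := by positivity
    exact mul_left_cancel₀ h7 h6
  have h6 : yc d z = yc d w := by rw [hyz, hyw, h5]
  have h7 : z.re ^ 2 + z.im ^ 2 = w.re ^ 2 + w.im ^ 2 := by
    have k1 := key_id hd z
    have k2 := key_id hd w
    rw [h6, h5] at k1
    rw [k1] at k2
    have := mul_left_cancel₀ hw.ne' k2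
    linarith
  have h8 : sq d z = sq d w := by unfold sq; rw [h7]
  have h9 := sq_pos hd w
  apply Complex.ext
  · unfold tc at h5
    rw [h8, h7] at h5
    have : sq d w * z.re = sq d w * w.re := by linarith
    exact mul_left_cancel₀ h9.ne' this
  · unfold yc at h6
    rw [h8] at h6
    have : sq d w * z.im = sq d w * w.im := by linarith
    exact mul_left_cancel₀ h9.ne' this

end

end Vale.Agent.P209
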