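import Mathlib

namespace Vale.Agent.P209

open Real

noncomputable section

/-- inverse symplectic polar coordinates -/
def pol (p : ℝ × ℝ) : ℂ := ⟨√(p.1 / π) * cos (2 * π * p.2), √(p.1 / π) * sin (2 * π * p.2)⟩

theorem pol_norm_sq {p : ℝ × ℝ} (hp : 0 ≤ p.1) : π * ‖pol p‖ ^ 2 = p.1 := by
  have h0 : 0 ≤ p.1 / π := div_nonneg hp Real.pi_pos.le
  rw [Complex.sq_norm, Complex.normSq_apply]
  simp only [pol]
  have h1 : √(p.1 / π) ^ 2 = p.1 / π := sq_sqrt h0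
  have h2 := Real.cos_sq_add_sin_sq (2 * π * p.2)
  have : √(p.1 / π) * cos (2 * π * p.2) * (√(p.1 / π) * cos (2 * π * p.2)) +
      √(p.1 / π) * sin (2 * π * p.2) * (√(p.1 / π) * sin (2 * π * p.2)) =
      √(p.1 / π) ^ 2 * (cos (2 * π * p.2) ^ 2 + sin (2 * π * p.2) ^ 2) := by ring
  rw [this, h1, h2]
  field_simp

theorem pol_eq {p q : ℝ × ℝ} (hp : 0 < p.1) (hq : 0 < q.1) (h : pol p = pol q) :
    p.1 = q.1 ∧ ∃ k : ℤ, p.2 - q.2 = k := by
  have h1 : p.1 = q.1 := by rw [← pol_norm_sq hp.le, ← pol_norm_sq hq.le, h]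
  refine ⟨h1, ?_⟩
  have hpos : 0 < √(p.1 / π) := sqrt_pos.2 (div_pos hp Real.pi_pos)
  have hre := congrArg Complex.re h
  have him := congrArg Complex.im h
  simp only [pol, ← h1] at hre him
  have hc := mul_left_cancel₀ hpos.ne' hre
  have hs := mul_left_cancel₀ hpos.ne' him
  have h3 : cos (2 * π * p.2 - 2 * π * q.2) = 1 := by
    rw [Real.cos_sub, hc, hs]
    have := Real.cos_sq_add_sin_sq (2 * π * q.2)
    nlinarith
  obtain ⟨k, hk⟩ := (Real.cos_eq_one_iff _).1 h3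
  refine ⟨k, ?_⟩
  have hpi := Real.pi_pos
  have : 2 * π * (p.2 - q.2) = 2 * π * k := by linarith
  exact mul_left_cancel₀ (by positivity) this

theorem exists_pol_deriv {p : ℝ × ℝ} (hp : 0 < p.1) :
    ∃ L : ℝ × ℝ →L[ℝ] ℂ, HasFDerivAt pol L p ∧
      ∀ u v : ℝ × ℝ, (L u).re * (L v).im - (L u).im * (L v).re = u.1 * v.2 - u.2 * v.1 := by
  have hpi := Real.pi_pos
  have h0 : p.1 / π ≠ 0 := (div_pos hp hpi).ne'
  have hf : HasFDerivAt (fun p : ℝ × ℝ => p.1) (ContinuousLinearMap.fst ℝ ℝ ℝ) p :=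
    hasFDerivAt_fst
  have hg : HasFDerivAt (fun p : ℝ × ℝ => p.2) (ContinuousLinearMap.snd ℝ ℝ ℝ) p :=
    hasFDerivAt_snd
  have hr := HasFDerivAt.sqrt (hf.mul_const (1 / π)) (by simpa using h0)
  have ha := hg.const_mul (2 * π)
  have hc := hr.mul ha.cos
  have hs := hr.mul ha.sin
  have hpair := hc.prodMk hs
  have hcomp := (Complex.equivRealProdCLM.symm.hasFDerivAt (x := (√(p.1 * (1 / π)) * cos (2 * π * p.2), √(p.1 * (1 / π)) * sin (2 * π * p.2)))).comp p hpair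
  refine ⟨_, hcomp.congr_of_eventuallyEq ?_, fun u v => ?_⟩
  · filter_upwards with q
    apply Complex.ext <;> simp [pol, div_eq_mul_inv]
  · have hsq : √(p.1 * (1 / π)) ≠ 0 := (sqrt_pos.2 (by positivity)).ne'
    have hsq2 : √(p.1 * (1 / π)) ^ 2 = p.1 * (1 / π) := sq_sqrt (by positivity)
    have htrig := Real.cos_sq_add_sin_sq (2 * π * p.2)
    simp
    have hr0 : √(p.1 * π⁻¹) ≠ 0 := (sqrt_pos.2 (by positivity)).ne'
    set r := √(p.1 * π⁻¹) with hr'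
    set c := cos (2 * π * p.2)
    set s := sin (2 * π * p.2)
    have : ∀ a b a' b' : ℝ, (-(r * (s * (2 * π * b))) + c * (r⁻¹ * 2⁻¹ * (π⁻¹ * a))) *
        (r * (c * (2 * π * b')) + s * (r⁻¹ * 2⁻¹ * (π⁻¹ * a'))) -
      (r * (c * (2 * π * b)) + s * (r⁻¹ * 2⁻¹ * (π⁻¹ * a))) *
        (-(r * (s * (2 * π * b'))) + c * (r⁻¹ * 2⁻¹ * (π⁻¹ * a'))) =
        (c ^ 2 + s ^ 2) * (a * b' - b * a') := by
      intro a b a' b'
      field_simp
      ring
    rw [this, htrig, one_mul]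

theorem pol_contDiffAt {p : ℝ × ℝ} (hp : 0 < p.1) {n : WithTop ℕ∞} : ContDiffAt ℝ n pol p := by
  have hpi := Real.pi_pos
  have h0 : p.1 / π ≠ 0 := (div_pos hp hpi).ne'
  have hr : ContDiffAt ℝ n (fun p : ℝ × ℝ => √(p.1 / π)) p :=
    (contDiffAt_fst.div_const π).sqrt h0
  have ha : ContDiffAt ℝ n (fun p : ℝ × ℝ => 2 * π * p.2) p :=
    contDiffAt_const.mul contDiffAt_snd
  have h := (Complex.equivRealProdCLM.symm.contDiff.contDiffAt (n := n)
    (x := (√(p.1 / π) * cos (2 * π * p.2), √(p.1 / π) * sin (2 * π * p.2)))).comp p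
    ((hr.mul ha.cos).prodMk (hr.mul ha.sin))
  refine h.congr_of_eventuallyEq ?_
  filter_upwards with q
  apply Complex.ext <;> simp [pol]

end

end Vale.Agent.P209
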