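import Vale.Agent.P209.Deriv
import Vale.Agent.P209.Polar
import Vale.Agent.P209.Embed

namespace Vale.Agent.P209

open Topology Filter Real

noncomputable section

/-- symplectic form on the action-angle space -/
def omegaM {n : ℕ} (p q : Fin n → ℝ × ℝ) : ℝ :=
  ∑ j, ((p j).1 * (q j).2 - (p j).2 * (q j).1)

def stripMap {n : ℕ} (d : ℝ) (z : Fin n → ℂ) : Fin n → ℝ × ℝ := fun j => plane d (z j)

def polMap {n : ℕ} (p : Fin n → ℝ × ℝ) : Fin n → ℂ := fun j => pol (p j)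

def linMap {n : ℕ} (B C : Matrix (Fin n) (Fin n) ℝ) :
    (Fin n → ℝ × ℝ) →ₗ[ℝ] (Fin n → ℝ × ℝ) where
  toFun p := fun j => (∑ i, B j i * (p i).1, ∑ i, C j i * (p i).2)
  map_add' p q := by
    funext j
    simp [mul_add, Finset.sum_add_distrib]
  map_smul' c p := by
    funext j
    simp [Finset.mul_sum, mul_left_comm]

def affMap {n : ℕ} (B C : Matrix (Fin n) (Fin n) ℝ) (b : Fin n → ℝ) (p : Fin n → ℝ × ℝ) :
    Fin n → ℝ × ℝ :=
  linMap B C p + fun j => (b j, 0)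

theorem strip_deriv {n : ℕ} {d : ℝ} (hd : 0 < d) (z : Fin n → ℂ) :
    ∃ L : (Fin n → ℂ) →L[ℝ] (Fin n → ℝ × ℝ), HasFDerivAt (stripMap d) L z ∧
      ∀ u v, omegaM (L u) (L v) = omega0 u v := by
  choose L hL hω using fun j => exists_plane_deriv hd (z j)
  refine ⟨ContinuousLinearMap.pi fun j => (L j).comp (ContinuousLinearMap.proj j), ?_, ?_⟩
  · rw [hasFDerivAt_pi]
    intro j
    exact (hL j).comp z (ContinuousLinearMap.proj (R := ℝ) (φ := fun _ : Fin n => ℂ) j).hasFDerivAt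
  · intro u v
    unfold omegaM omega0
    refine Finset.sum_congr rfl fun j _ => ?_
    simpa using hω j (u j) (v j)

theorem pol_deriv {n : ℕ} {p : Fin n → ℝ × ℝ} (hp : ∀ j, 0 < (p j).1) :
    ∃ L : (Fin n → ℝ × ℝ) →L[ℝ] (Fin n → ℂ), HasFDerivAt polMap L p ∧
      ∀ u v, omega0 (L u) (L v) = omegaM u v := by
  choose L hL hω using fun j => exists_pol_deriv (hp j)
  refine ⟨ContinuousLinearMap.pi fun j => (L j).comp (ContinuousLinearMap.proj j), ?_, ?_⟩
  · rw [hasFDerivAt_pi]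
    intro j
    exact (hL j).comp p
      (ContinuousLinearMap.proj (R := ℝ) (φ := fun _ : Fin n => ℝ × ℝ) j).hasFDerivAt
  · intro u v
    unfold omegaM omega0
    refine Finset.sum_congr rfl fun j _ => ?_
    simpa using hω j (u j) (v j)

theorem lin_omega {n : ℕ} {B C : Matrix (Fin n) (Fin n) ℝ} (hBC : B.transpose * C = 1)
    (p q : Fin n → ℝ × ℝ) : omegaM (linMap B C p) (linMap B C q) = omegaM p q := by
  have key : ∀ x y : Fin n → ℝ, ∑ j, (∑ i, B j i * x i) * (∑ i, C j i * y i) = ∑ j, x j * y j := by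
    intro x y
    have h1 : ∀ j, (∑ i, B j i * x i) = (B.mulVec x) j := fun j => rfl
    have h2 : ∀ j, (∑ i, C j i * y i) = (C.mulVec y) j := fun j => rfl
    simp only [h1, h2]
    change (B.mulVec x) ⬝ᵥ (C.mulVec y) = x ⬝ᵥ y
    rw [← Matrix.vecMul_transpose, ← Matrix.dotProduct_mulVec, Matrix.mulVec_mulVec, hBC,
      Matrix.one_mulVec]
  unfold omegaM
  rw [Finset.sum_sub_distrib, Finset.sum_sub_distrib]
  have e1 := key (fun i => (p i).1) (fun i => (q i).2)
  have e2 := key (fun i => (q i).1) (fun i => (p i).2)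
  have e3 : ∑ j, ((linMap B C p) j).1 * ((linMap B C q) j).2 = ∑ j, (p j).1 * (q j).2 := e1
  have e4 : ∑ j, ((linMap B C p) j).2 * ((linMap B C q) j).1 = ∑ j, (p j).2 * (q j).1 := by
    have : ∀ j, ((linMap B C p) j).2 * ((linMap B C q) j).1 =
      ((linMap B C q) j).1 * ((linMap B C p) j).2 := fun j => mul_comm _ _
    simp only [this]
    rw [show ∑ j, (p j).2 * (q j).1 = ∑ j, (q j).1 * (p j).2 from
      Finset.sum_congr rfl fun j _ => mul_comm _ _]
    exact e2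
  rw [e3, e4]

theorem aff_deriv {n : ℕ} {B C : Matrix (Fin n) (Fin n) ℝ} (hBC : B.transpose * C = 1)
    (b : Fin n → ℝ) (p : Fin n → ℝ × ℝ) :
    ∃ L : (Fin n → ℝ × ℝ) →L[ℝ] (Fin n → ℝ × ℝ), HasFDerivAt (affMap B C b) L p ∧
      ∀ u v, omegaM (L u) (L v) = omegaM u v := by
  refine ⟨(linMap B C).toContinuousLinearMap, ?_, fun u v => ?_⟩
  · unfold affMap
    exact (LinearMap.toContinuousLinearMap (linMap B C)).hasFDerivAt.add_const _
  · exact lin_omega hBC u v

/-- The toric embedding. -/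
def toricMap {n : ℕ} (d : ℝ) (B C : Matrix (Fin n) (Fin n) ℝ) (b : Fin n → ℝ)
    (z : Fin n → ℂ) : Fin n → ℂ :=
  polMap (affMap B C b (stripMap d z))

theorem toric_deriv {n : ℕ} {d : ℝ} (hd : 0 < d) {B C : Matrix (Fin n) (Fin n) ℝ}
    (hBC : B.transpose * C = 1) (b : Fin n → ℝ) (z : Fin n → ℂ)
    (hz : ∀ j, 0 < (affMap B C b (stripMap d z) j).1) (u v : Fin n → ℂ) :
    omega0 (fderiv ℝ (toricMap d B C b) z u) (fderiv ℝ (toricMap d B C b) z v) = omega0 u v := by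
  obtain ⟨L1, h1, w1⟩ := strip_deriv hd z
  obtain ⟨L2, h2, w2⟩ := aff_deriv hBC b (stripMap d z)
  obtain ⟨L3, h3, w3⟩ := pol_deriv hz
  have h : HasFDerivAt (toricMap d B C b) (L3.comp (L2.comp L1)) z := by
    exact h3.comp z (h2.comp z h1)
  rw [h.fderiv]
  simp only [ContinuousLinearMap.comp_apply]
  rw [w3, w2, w1]

theorem toric_contDiffAt {n : ℕ} {d : ℝ} (hd : 0 < d) (B C : Matrix (Fin n) (Fin n) ℝ)
    (b : Fin n → ℝ) (z : Fin n → ℂ)
    (hz : ∀ j, 0 < (affMap B C b (stripMap d z) j).1) :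
    ContDiffAt ℝ (⊤ : ℕ∞) (toricMap d B C b) z := by
  have h1 : ContDiff ℝ (⊤ : ℕ∞) (stripMap (n := n) d) := by
    rw [contDiff_pi]
    intro j
    exact (plane_contDiff hd).comp
      (ContinuousLinearMap.proj (R := ℝ) (φ := fun _ : Fin n => ℂ) j).contDiff
  have h2 : ContDiff ℝ (⊤ : ℕ∞) (affMap B C b) := by
    unfold affMap
    exact (LinearMap.toContinuousLinearMap (linMap B C)).contDiff.add contDiff_const
  have h3 : ContDiffAt ℝ (⊤ : ℕ∞) polMap (affMap B C b (stripMap d z)) := by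
    rw [contDiffAt_pi]
    intro j
    exact (pol_contDiffAt (hz j)).comp (affMap B C b (stripMap d z))
      (ContinuousLinearMap.proj (R := ℝ) (φ := fun _ : Fin n => ℝ × ℝ) j).contDiff.contDiffAt
  exact h3.comp z (h2.comp h1).contDiffAt

end

end Vale.Agent.P209
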