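import Vale.Agent.P209.Toric

namespace Vale.Agent.P209

open Topology Filter Real

noncomputable section

/-- real matrix of an integer matrix -/
def rm {n : ℕ} (B : Matrix (Fin n) (Fin n) ℤ) : Matrix (Fin n) (Fin n) ℝ := B.map (Int.cast)

theorem rm_mul {n : ℕ} (A B : Matrix (Fin n) (Fin n) ℤ) : rm (A * B) = rm A * rm B := by
  unfold rm
  have := (Int.castRingHom ℝ).mapMatrix.map_mul A B
  simpa [RingHom.mapMatrix_apply] using this

theorem rm_one {n : ℕ} : rm (1 : Matrix (Fin n) (Fin n) ℤ) = 1 := by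
  unfold rm
  exact Matrix.map_one _ (by simp) (by simp)

theorem toric_injOn {n : ℕ} {d : ℝ} (hd : 0 < d) {B B' : Matrix (Fin n) (Fin n) ℤ}
    (hB : B' * B = 1) (b : Fin n → ℝ) {z w : Fin n → ℂ}
    (hz : ∀ j, 0 < (affMap (rm B) (rm B').transpose b (stripMap d z) j).1)
    (hw : ∀ j, 0 < (affMap (rm B) (rm B').transpose b (stripMap d w) j).1)
    (h : toricMap d (rm B) (rm B').transpose b z = toricMap d (rm B) (rm B').transpose b w) :
    z = w := by
  have hBr : rm B' * rm B = 1 := by rw [← rm_mul, hB, rm_one]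
  set x : Fin n → ℝ := fun i => (plane d (z i)).1 with hx
  set x' : Fin n → ℝ := fun i => (plane d (w i)).1 with hx'
  set t : Fin n → ℝ := fun i => (plane d (z i)).2 with ht
  set t' : Fin n → ℝ := fun i => (plane d (w i)).2 with ht'
  have hj := fun j => pol_eq (hz j) (hw j) (congrFun h j)
  have h1 : (rm B).mulVec x = (rm B).mulVec x' := by
    funext j
    have := (hj j).1
    simp only [affMap, Pi.add_apply, Prod.fst_add] at this
    have e := add_right_cancel this
    exact e
  have hxx : x = x' := by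
    have := congrArg (rm B').mulVec h1
    simpa [Matrix.mulVec_mulVec, hBr] using this
  choose _ k hk using hj
  have h2 : (rm B').transpose.mulVec (t - t') = fun j => (k j : ℝ) := by
    funext j
    rw [Matrix.mulVec_sub]
    have := hk j
    simp only [affMap, Pi.add_apply, Prod.snd_add, add_zero] at this
    exact this
  have h3 : t - t' = (rm B).transpose.mulVec (fun j => (k j : ℝ)) := by
    rw [← h2, Matrix.mulVec_mulVec, ← Matrix.transpose_mul, hBr]
    simp
  have htt : t = t' := by
    funext l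
    have h4 : t l - t' l = ((∑ j, B j l * k j : ℤ) : ℝ) := by
      have := congrFun h3 l
      simp only [Pi.sub_apply] at this
      rw [this]
      simp [Matrix.mulVec, dotProduct, rm]
    have a1 : 0 < t l := Tc_pos _ _
    have a2 : t l < 1 := Tc_lt_one _ _
    have a3 : 0 < t' l := Tc_pos _ _
    have a4 : t' l < 1 := Tc_lt_one _ _
    have h5 : ((∑ j, B j l * k j : ℤ) : ℝ) < 1 := by rw [← h4]; linarith
    have h6 : (-1 : ℝ) < ((∑ j, B j l * k j : ℤ) : ℝ) := by rw [← h4]; linarith
    have h7 : (∑ j, B j l * k j : ℤ) < 1 := by exact_mod_cast h5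
    have h8 : -1 < (∑ j, B j l * k j : ℤ) := by exact_mod_cast h6
    have h9 : (∑ j, B j l * k j : ℤ) = 0 := by omega
    rw [h9] at h4
    simp at h4
    linarith
  funext i
  exact plane_inj hd (congrFun hxx i) (congrFun htt i)

theorem toric_embedding {n : ℕ} (hn : 1 ≤ n) {B B' : Matrix (Fin n) (Fin n) ℤ}
    (hB : B' * B = 1) (b : Fin n → ℝ) {s r : ℝ} (hrs : r < s)
    (hpos : ∀ x : Fin n → ℝ, (∀ i, 0 < x i) → ∑ i, x i < s →
      ∀ j, 0 < (rm B).mulVec x j + b j) :
    ∃ f : (Fin n → ℂ) → (Fin n → ℂ), IsSymplecticEmbedding (closedCapBall n r) f ∧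
      ∀ z ∈ closedCapBall n r, ∃ x : Fin n → ℝ, (∀ i, 0 < x i) ∧ ∑ i, x i < s ∧
        ∀ j, π * ‖f z j‖ ^ 2 = (rm B).mulVec x j + b j := by
  have hpi := Real.pi_pos
  have hn' : (0 : ℝ) < n := by exact_mod_cast hn
  set d : ℝ := (s - r) / (2 * π * n) with hd'
  have hd : 0 < d := by
    rw [hd']; apply div_pos <;> [linarith; positivity]
  have hBr : rm B' * rm B = 1 := by rw [← rm_mul, hB, rm_one]
  have hBC : (rm B).transpose * (rm B').transpose = 1 := by
    rw [← Matrix.transpose_mul, hBr, Matrix.transpose_one]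
  set U : Set (Fin n → ℂ) := {z | ∑ i, (plane d (z i)).1 < s} with hU
  have hUo : IsOpen U := by
    apply isOpen_lt _ continuous_const
    refine continuous_finsetSum _ fun i _ => ?_
    exact continuous_fst.comp ((plane_contDiff (n := 0) hd).continuous.comp (continuous_apply i))
  have hKU : closedCapBall n r ⊆ U := by
    intro z hz
    simp only [closedCapBall, Set.mem_ofPred_eq] at hz
    simp only [hU, Set.mem_ofPred_eq]
    have h1 : ∑ i, (plane d (z i)).1 < ∑ i : Fin n, (π * ‖z i‖ ^ 2 + 2 * π * d) := by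
      apply Finset.sum_lt_sum_of_nonempty
      · exact ⟨⟨0, hn⟩, Finset.mem_univ _⟩
      · intro i _
        exact Xc_lt hd (z i)
    have h2 : ∑ i : Fin n, (π * ‖z i‖ ^ 2 + 2 * π * d) = π * ∑ i, ‖z i‖ ^ 2 + n * (2 * π * d) := by
      rw [Finset.sum_add_distrib, ← Finset.mul_sum]
      simp
    have h3 : (n : ℝ) * (2 * π * d) = s - r := by
      rw [hd']; field_simp
    linarith
  have hUpos : ∀ z ∈ U, ∀ j, 0 < (affMap (rm B) (rm B').transpose b (stripMap d z) j).1 := by
    intro z hz j
    have := hpos (fun i => (plane d (z i)).1) (fun i => Xc_pos (tc_pos hd _) _) hz j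
    simpa [affMap, linMap, Matrix.mulVec, dotProduct, stripMap] using this
  refine ⟨toricMap d (rm B) (rm B').transpose b, ?_, ?_⟩
  · have hsm : ContDiffOn ℝ (⊤ : ℕ∞) (toricMap d (rm B) (rm B').transpose b) U := by
      intro z hz
      exact (toric_contDiffAt hd _ _ b z (hUpos z hz)).contDiffWithinAt
    have hω : ∀ z ∈ U, ∀ u v, omega0 (fderiv ℝ (toricMap d (rm B) (rm B').transpose b) z u)
        (fderiv ℝ (toricMap d (rm B) (rm B').transpose b) z v) = omega0 u v := by
      intro z hz u v
      exact toric_deriv hd hBC b z (hUpos z hz) u v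
    refine ⟨U, hUo, hKU, hsm, ?_, hω⟩
    refine isEmbedding_of_symplectic hUo hsm ?_ hω
    intro z hz w hw hzw
    exact toric_injOn hd hB b (hUpos z hz) (hUpos w hw) hzw
  · intro z hz
    refine ⟨fun i => (plane d (z i)).1, fun i => Xc_pos (tc_pos hd _) _, hKU hz, fun j => ?_⟩
    have h1 := pol_norm_sq (hUpos z (hKU hz) j).le
    have h2 : (affMap (rm B) (rm B').transpose b (stripMap d z) j).1 =
      (rm B).mulVec (fun i => (plane d (z i)).1) j + b j := by
      simp [affMap, linMap, Matrix.mulVec, dotProduct, stripMap]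
    rw [← h2]
    exact h1

end

end Vale.Agent.P209
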